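import Mathlib
import Vale.Agent.Helper23.P110Core

/-
P110, hand-in ProductBound.
For every real Littlewood polynomial P of length N (coefficients +1 or -1) there are points
z, w on the unit circle with |P(z)|^2 >= N >= |P(w)|^2 and
(|P(z)|^2 - N) * (N - |P(w)|^2) >= N - 1.
-/

namespace Vale.Agent.Results.P110.ProductBound

open Finset Vale.Agent.Helper23.P110Core

theorem result (N : ℕ) (hN : 1 ≤ N) (ε : Fin N → ℝ) (hε : ∀ k, ε k = 1 ∨ ε k = -1) :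
    ∃ z w : ℂ, ‖z‖ = 1 ∧ ‖w‖ = 1 ∧
      (N : ℝ) ≤ ‖∑ k : Fin N, (ε k : ℂ) * z ^ (k : ℕ)‖ ^ 2 ∧
      ‖∑ k : Fin N, (ε k : ℂ) * w ^ (k : ℕ)‖ ^ 2 ≤ (N : ℝ) ∧
      (N : ℝ) - 1 ≤ (‖∑ k : Fin N, (ε k : ℂ) * z ^ (k : ℕ)‖ ^ 2 - N) *
        (N - ‖∑ k : Fin N, (ε k : ℂ) * w ^ (k : ℕ)‖ ^ 2) := by
  classical
  set e : ℕ → ℤ := fun k => if h : k < N then (if ε ⟨k, h⟩ = 1 then 1 else -1) else 1 with he
  have he1 : ∀ k, e k = 1 ∨ e k = -1 := by
    intro k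
    rw [he]
    simp only
    split_ifs <;> simp
  have hcast : ∀ k : Fin N, ((e (k : ℕ) : ℤ) : ℂ) = (ε k : ℂ) := by
    intro k
    rw [he]
    simp only [Fin.is_lt, dif_pos, Fin.eta]
    rcases hε k with h | h
    · rw [if_pos h, h]; simp
    · have h1 : ¬ (ε k = 1) := by rw [h]; norm_num
      rw [if_neg h1, h]; simp
  have hP : ∀ z : ℂ, Pval N e z = ∑ k : Fin N, (ε k : ℂ) * z ^ (k : ℕ) := by
    intro z
    unfold Pval
    rw [Finset.sum_range]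
    exact Finset.sum_congr rfl (fun k _ => by rw [hcast k])
  obtain ⟨z, w, hz, hw, h1, h2, h3⟩ := core N hN e he1
  rw [hP z] at h1 h3
  rw [hP w] at h2 h3
  exact ⟨z, w, hz, hw, h1, h2, h3⟩

end Vale.Agent.Results.P110.ProductBound
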