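import Mathlib
import Vale.Agent.Helper23.P110Core

/-
P110, hand-in RateBound.
For every real Littlewood polynomial P of length N >= 2 (coefficients +1 or -1) there is a point z
on the unit circle with | |P(z)| / sqrt N - 1 | >= sqrt (N - 1) / (2 N).
So the flatness error of a Littlewood polynomial of length N is never below sqrt (N - 1) / (2 N).
-/

namespace Vale.Agent.Results.P110.RateBound

open Finset Vale.Agent.Helper23.P110Core

theorem result (N : ℕ) (hN : 2 ≤ N) (ε : Fin N → ℝ) (hε : ∀ k, ε k = 1 ∨ ε k = -1) :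
    ∃ z : ℂ, ‖z‖ = 1 ∧
      Real.sqrt ((N : ℝ) - 1) / (2 * (N : ℝ)) ≤
        |‖∑ k : Fin N, (ε k : ℂ) * z ^ (k : ℕ)‖ / Real.sqrt (N : ℝ) - 1| := by
  classical
  set e : ℕ → ℤ := fun k => if h : k < N then (if ε ⟨k, h⟩ = 1 then 1 else -1) else 1 with he
  have he1 : ∀ k, e k = 1 ∨ e k = -1 := by
    intro k
    rw [he]
    simp only
    split_ifs <;> simp
  have hcast : ∀ k : Fin N, ((e (k : ℕ) : ℤ) : ℂ) = (ε k : ℂ) := by
    intro k
    rw [he]
    simp only [Fin.is_lt, dif_pos, Fin.eta]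
    rcases hε k with h | h
    · rw [if_pos h, h]; simp
    · have h1 : ¬ (ε k = 1) := by rw [h]; norm_num
      rw [if_neg h1, h]; simp
  have hP : ∀ z : ℂ, Pval N e z = ∑ k : Fin N, (ε k : ℂ) * z ^ (k : ℕ) := by
    intro z
    unfold Pval
    rw [Finset.sum_range]
    exact Finset.sum_congr rfl (fun k _ => by rw [hcast k])
  obtain ⟨z, w, hz, hw, h1, h2, h3⟩ := core N (by omega) e he1
  rw [hP z] at h1 h3
  rw [hP w] at h2 h3
  set x : ℝ := ‖∑ k : Fin N, (ε k : ℂ) * z ^ (k : ℕ)‖ with hx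
  set y : ℝ := ‖∑ k : Fin N, (ε k : ℂ) * w ^ (k : ℕ)‖ with hy
  have hx0 : 0 ≤ x := norm_nonneg _
  have hy0 : 0 ≤ y := norm_nonneg _
  have hNr : (2 : ℝ) ≤ (N : ℝ) := by exact_mod_cast hN
  set s : ℝ := Real.sqrt (N : ℝ) with hs
  set d : ℝ := Real.sqrt ((N : ℝ) - 1) with hd
  have hs2 : s ^ 2 = (N : ℝ) := Real.sq_sqrt (by linarith)
  have hd2 : d ^ 2 = (N : ℝ) - 1 := Real.sq_sqrt (by linarith)
  have hspos : 0 < s := Real.sqrt_pos.mpr (by linarith)
  have hd0 : 0 ≤ d := Real.sqrt_nonneg _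
  set δ : ℝ := d / (2 * (N : ℝ)) with hδ
  have hδ0 : 0 ≤ δ := by positivity
  have hδ2 : 4 * (N : ℝ) ^ 2 * δ ^ 2 = (N : ℝ) - 1 := by
    rw [hδ, div_pow, hd2]
    field_simp
    ring
  have hδ1 : δ ≤ 1 := by
    have : δ ^ 2 ≤ 1 := by
      have h4 : 4 * (N : ℝ) ^ 2 * δ ^ 2 ≤ 4 * (N : ℝ) ^ 2 * 1 := by
        rw [hδ2]; nlinarith
      have h5 : (0 : ℝ) < 4 * (N : ℝ) ^ 2 := by positivity
      exact le_of_mul_le_mul_left h4 h5
    nlinarith
  by_contra hcon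
  simp only [not_exists, not_and, not_le] at hcon
  have hzc := hcon z hz
  have hwc := hcon w hw
  rw [abs_lt] at hzc hwc
  -- x < s (1 + δ), y > s (1 - δ)
  have hxu : x < s * (1 + δ) := by
    have := hzc.2
    rw [sub_lt_iff_lt_add, div_lt_iff₀ hspos] at this
    linarith
  have hyl : s * (1 - δ) < y := by
    have := hwc.1
    rw [lt_sub_iff_add_lt, lt_div_iff₀ hspos] at this
    linarith
  have hA : x ^ 2 - N < N * (2 * δ + δ ^ 2) := by
    have h' : x ^ 2 < (s * (1 + δ)) ^ 2 := by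
      apply sq_lt_sq'
      · have : 0 < s * (1 + δ) := by positivity
        linarith
      · exact hxu
    rw [mul_pow, hs2] at h'
    nlinarith
  have hB : N - y ^ 2 < N * (2 * δ - δ ^ 2) := by
    have hnn : 0 ≤ s * (1 - δ) := mul_nonneg hspos.le (by linarith)
    have h' : (s * (1 - δ)) ^ 2 < y ^ 2 := by
      apply sq_lt_sq'
      · linarith
      · exact hyl
    rw [mul_pow, hs2] at h'
    nlinarith
  have hA0 : 0 ≤ x ^ 2 - N := by linarith
  have hB0 : 0 ≤ N - y ^ 2 := by linarith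
  have hprod : (x ^ 2 - N) * (N - y ^ 2) < (N * (2 * δ + δ ^ 2)) * (N * (2 * δ - δ ^ 2)) := by
    have hB' : 0 < N * (2 * δ - δ ^ 2) := lt_of_le_of_lt hB0 hB
    calc (x ^ 2 - N) * (N - y ^ 2) ≤ (x ^ 2 - N) * (N * (2 * δ - δ ^ 2)) :=
          mul_le_mul_of_nonneg_left hB.le hA0
      _ < (N * (2 * δ + δ ^ 2)) * (N * (2 * δ - δ ^ 2)) :=
          mul_lt_mul_of_pos_right hA hB'
  have hfin : (N * (2 * δ + δ ^ 2)) * (N * (2 * δ - δ ^ 2)) ≤ (N : ℝ) - 1 := by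
    have : (N * (2 * δ + δ ^ 2)) * (N * (2 * δ - δ ^ 2)) = 4 * (N : ℝ) ^ 2 * δ ^ 2 - (N : ℝ) ^ 2 * δ ^ 4 := by ring
    rw [this, hδ2]
    have : 0 ≤ (N : ℝ) ^ 2 * δ ^ 4 := by positivity
    linarith
  linarith

end Vale.Agent.Results.P110.RateBound
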